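import Vale.Agent.P324.Defs
import Vale.Agent.P324.Main

namespace Vale.Agent.Results.P324.PolyTime

open Vale.Agent.P324

/-- Three-machine scheduling of unit jobs with precedence constraints is solvable in polynomial
time: both the decision problem and the construction of an optimal schedule. -/
theorem result :
    (∃ f : Prec × ℕ → Bool,
      (∃ h : Turing.TM2ComputableInPolyTime encInst (fun b : Bool => [b]) f,
        ∀ k, Finite (h.tm.Γ k)) ∧
      ∀ (G : Prec) (T : ℕ), 1 ≤ G.n → G.Acyclic →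
        (f (G, T) = true ↔ ∃ τ, G.IsSched T τ)) ∧
    (∃ A : Prec → List ℕ,
      (∃ h : Turing.TM2ComputableInPolyTime Prec.enc encList A, ∀ k, Finite (h.tm.Γ k)) ∧
      ∀ G : Prec, 1 ≤ G.n → G.Acyclic →
        ∃ T, (G.IsSched T fun v => (A G).getD v 0) ∧ ∀ T' τ, G.IsSched T' τ → T ≤ T') :=
  ⟨⟨_, dec_tm, fun _ T hn hG => decS_iff hG hn T⟩, _, opt_tm, fun _ hn hG => optS_spec hG hn⟩

end Vale.Agent.Results.P324.PolyTime
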